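import Vale.Agent.P269E.Fin
import Vale.Agent.P269AV.Main
import Vale.Agent.P269CX.BC
import Vale.Agent.P269HD.Bh
import Vale.Agent.P269HI.Fin
import Vale.Agent.P269HZ.Bun

/-!
# P269: Virasoro constraints for complete intersections, in the range cut out by dimension
-/

open scoped Manifold ContDiff

namespace Vale.Agent.Results.P269.Virasoro

open P269A P269S P269E P269ZV

theorem result (r c N : ℕ) (M ι : Type)
    [TopologicalSpace M] [ChartedSpace (Cm r) M] [IsManifold 𝓘(ℂ, Cm r) ω M] [T2Space M]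
    [CompactSpace M] [ConnectedSpace M] [Fintype ι] [DecidableEq ι] (X : CI c N M)
    (φ : ι → Fm r M) (Y : Coh ι) (I : ℕ → List ℕ → MvPolynomial ℕ ℂ → ℂ)
    (G : ℕ → ℕ → List (ℕ × ι) → ℂ) (hX : X.Ok φ Y) (hI : Hodge I) (hG : GW X φ Y I G)
    (hr : 3 ≤ r) :
    let e := fun x : ℕ × ι => Y.deg x.2
    let cf := fun d j (x : PowerSeries (LaurentSeries ℂ)) => (PowerSeries.coeff d x).coeff j
    let L := L Y fun j c => PowerSeries.C (HahnSeries.single j c)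
    ∃ F Z, (∀ d w, (∀ j < -1, cf d j (F w) = 0) ∧ ∀ g : ℕ, cf d (g - 1) (F w) = G g d w.reverse) ∧
      (∀ d j, IsExp e (cf d j) F Z) ∧
      (∀ n, ∃ ζ, (∀ w, L n Z w = mul e ζ Z w) ∧ ∀ d w, (∀ j < -1, cf d j (ζ w) = 0) ∧
        ∀ g : ℕ, d = 0 ∨ (3 - r : ℤ) * (g - 1) + X.idx * d < 0 → cf d (g - 1) (ζ w) = 0) ∧
      (X.idx < 3 - r → ∀ n w, L n Z w = 0) :=
  final_of P269AV.ba P269CX.bc (P269HD.bh_of P269HZ.bun P269HI.deg_row) r c N M ι X φ Y I G hX hI hG hr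

end Vale.Agent.Results.P269.Virasoro
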